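import Vale.Agent.P181.H280.Final

set_option autoImplicit false

open Vale.Agent.P181.H280

namespace Vale.Agent.Results.P181.PowerMapTall

/-- **Foulkes' conjecture for `b = q a` and all partitions with `λ_a ≥ 2q - 3`.**
Let `a, q ≥ 2` and `n ≥ a`, and let `V = ℂ^n`. There is one linear map
`Ψ : Sym^a(Sym^{qa} V) → Sym^{qa}(Sym^a V)` which commutes with all linear endomorphisms of `V`
and is injective on the highest weight vectors of weight `λ`, for any `λ` whose first `a` entries
are at least `2q - 3`; and, for all these `λ`, the multiplicity of the Schur module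
`S_λ V` in `Sym^a(Sym^{qa} V)` is at most its multiplicity in `Sym^{qa}(Sym^a V)`. -/
theorem result (a q n : ℕ) (ha : 2 ≤ a) (hq : 2 ≤ q) (han : a ≤ n) :
    ∃ Ψ : Pleth a (q * a) n →ₗ[ℂ] Pleth (q * a) a n, IsEquivariant Ψ ∧
      ∀ lam : Fin n → ℕ, (∀ i : Fin n, (i : ℕ) < a → 2 * q ≤ lam i + 3) →
        InjOnHW Ψ lam ∧ plethMult a (q * a) n lam ≤ plethMult (q * a) a n lam :=
  ⟨powMap a q (Fin n → ℂ),
    fun g x => LinearMap.congr_fun (powMap_equivariant a q (Matrix.toLin' g)) x,
    fun lam hlam => ⟨fun x hx h0 => powMap_injOn ha hq han lam hlam x hx h0,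
      plethMult_le ha hq han lam hlam⟩⟩

end Vale.Agent.Results.P181.PowerMapTall
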