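import Vale.Agent.P181.Bdl.B2
import Vale.Agent.P181.H280.Final
import Vale.Agent.P181.H421.Defs

set_option autoImplicit false

open Vale.Agent.P181 Vale.Agent.P181.H421

universe u

namespace Vale.Agent.Results.P181.QuadraticAndTall

/-- **Foulkes' conjecture, two ranges.** (1) If `(a-1)^2 ≤ b` then, for every finite-dimensional
complex vector space `V`, the canonical (Foulkes-Howe) map `Sym^a(Sym^b V) → Sym^b(Sym^a V)` is
equivariant and injective. (2) For `a, q ≥ 2` and `n ≥ a`, `b = qa`, the multiplicity inequality
(by an equivariant map) for all partitions whose first `a` entries are at least `2q - 3`. -/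
theorem result :
    (∀ a b : ℕ, (a - 1) ^ 2 ≤ b → CanonicalInjective.{u} a b) ∧
    (∀ a q n : ℕ, 2 ≤ a → 2 ≤ q → a ≤ n → TallInequality a q n) := by
  refine ⟨fun a b hab V _ _ _ => ?_, fun a q n ha hq han => ?_⟩
  · exact ⟨foulkesHowe a b V, foulkesHowe_tprod a b, foulkesHowe_equivariant a b,
      foulkesHowe_injective hab⟩
  · exact ⟨H280.powMap a q (Fin n → ℂ),
      fun g x => LinearMap.congr_fun (H280.powMap_equivariant a q (Matrix.toLin' g)) x,
      fun lam hlam => ⟨fun x hx h0 => H280.powMap_injOn ha hq han lam hlam x hx h0,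
        H280.plethMult_le ha hq han lam hlam⟩⟩

end Vale.Agent.Results.P181.QuadraticAndTall
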